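import Vale.Agent.P088.R2.H983.Fl.Zi
import Vale.Agent.P088.R2.H606.EP.Prf

/-!
# P088, stage 3, zone II: the functions of the weight of the package near the diagonal
-/

open Set Filter
open scoped ContDiff Topology

noncomputable section

namespace Vale.Agent.P088.R2.H31.EP

variable {n : ℕ}

/-- **The functions of the weight of the package near the diagonal** (helper983's `Wn`). -/
def Pk.wn (d : Pk n) (q : Cst) : H983.Fl.Wn n where
  s := d.s₁
  g := gi d.s₁
  l := d.l
  u := d.u q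
  Φ₁ := deriv d.Φ
  Φ₂ := deriv (deriv d.Φ)
  μ₁ := deriv (d.μc q)
  μ₂ := deriv (deriv (d.μc q))
  S := prS q.e₁
  S₁ := H606.EP.prS₁ q.e₁
  S₂ := H606.EP.prS₂ q.e₁
  S₃ := H606.EP.prS₃ q.e₁

theorem Pk.wn_r2 (d : Pk n) (q : Cst) : (d.wn q).r2 = d.r2 := rfl

end Vale.Agent.P088.R2.H31.EP
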