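import Vale.Agent.P088.R2.H86.Z.Exh
import Vale.Agent.P088.R2.H165.Tab
import Vale.Agent.P088.R2.H867.Z.Cz2
import Vale.Agent.P088.R2.H961.Cal

/-!
# P088, stage 3, zone II: exhaustion with helper867's letter `Zc`

`zone_exhII`: the zone inequality with `MII`, `cII`, `Zc` follows from those for the cut-offs
`chE ε χ` on the open set `χ ≠ 0`. `ct_mg`, `ct_co`: continuity of the letters on the whole space
when `χ` vanishes near the diagonal.
-/

open MeasureTheory Set Filter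
open scoped ContDiff Topology

noncomputable section

namespace Vale.Agent.P088.R2.H86.Z

open Vale.Agent.P088.LR Vale.Agent.P088.HY Vale.Agent.P088.R2.H464.Cu
open Vale.Agent.P088.R2.H961.GW hiding Zc
open Vale.Agent.P088.R2.H644 Vale.Agent.P088.R2.H960.W
  Vale.Agent.P088.R2.H551.E Vale.Agent.P088.R2.H165.Tab
open Vale.Agent.P088.R2.H867.Z (sq1 sqp Zc)

variable {n : ℕ}

section zc

variable {χ : VV n → ℝ} {ε K η : ℝ} {ρ En N k : VV n → ℝ}

theorem dx_chE (hε : 0 < ε) (hχ : ContDiff ℝ ∞ χ) (i : Fin n) (z : VV n) :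
    dx i (chE ε χ) z = phE ε χ z * dx i χ z := by
  unfold dx
  rw [chE_fd hε (hχ.differentiable (by simp) z)]
  rfl

theorem dy_chE (hε : 0 < ε) (hχ : ContDiff ℝ ∞ χ) (i : Fin n) (z : VV n) :
    dy i (chE ε χ) z = phE ε χ z * dy i χ z := by
  unfold dy
  rw [chE_fd hε (hχ.differentiable (by simp) z)]
  rfl

theorem sq1_chE (hε : 0 < ε) (hχ : ContDiff ℝ ∞ χ) (z : VV n) :
    sq1 (chE ε χ) z = phE ε χ z ^ 2 * sq1 χ z := by
  unfold sq1
  rw [Finset.mul_sum]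
  refine Finset.sum_congr rfl fun i _ => ?_
  rw [dx_chE hε hχ, dy_chE hε hχ]
  ring

theorem sqp_chE (hε : 0 < ε) (hχ : ContDiff ℝ ∞ χ) (z : VV n) :
    sqp (chE ε χ) z = phE ε χ z ^ 2 * sqp χ z := by
  unfold sqp
  rw [Finset.mul_sum]
  refine Finset.sum_congr rfl fun i _ => ?_
  rw [dx_chE hε hχ, dy_chE hε hχ]
  ring

theorem Zc_chE (hε : 0 < ε) (hχ : ContDiff ℝ ∞ χ) (z : VV n) :
    Zc K η ρ En N k (chE ε χ) z = phE ε χ z ^ 2 * Zc K η ρ En N k χ z := by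
  unfold Zc
  rw [sq1_chE hε hχ, sqp_chE hε hχ]
  ring

/-- The letter vanishes where the derivatives vanish. -/
theorem Zc_0 {z : VV n} (h1 : sq1 χ z = 0) (h2 : sqp χ z = 0) : Zc K η ρ En N k χ z = 0 := by
  unfold Zc
  rw [h1, h2]
  ring

end zc

theorem cII_sm (ν : Nu (VV n)) (C : ℝ) (Z f : VV n → ℝ) :
    (cII ν C Z).sm f = cII ν C fun z => f z * Z z := by
  unfold cII Q8.sm
  ext z <;> simp only [Pi.mul_apply] <;> ring

theorem cII_C (ν : Nu (VV n)) (C C' : ℝ) (Z : VV n → ℝ) :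
    (cII ν C Z).sm (fun _ => C') = cII ν (C' * C) Z := by
  unfold cII Q8.sm
  ext z <;> simp only [Pi.mul_apply] <;> ring

/-- A quotient which vanishes near the zeros of the denominator. -/
theorem ct_inv {E : Type*} [TopologicalSpace E] {f g : E → ℝ} (hf : Continuous f)
    (hg : Continuous g) (h : ∀ z, g z = 0 → f =ᶠ[𝓝 z] fun _ => 0) :
    Continuous fun z => f z * (g z)⁻¹ := by
  rw [continuous_iff_continuousAt]
  intro z
  by_cases hz : g z = 0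
  · have h1 : (fun z => f z * (g z)⁻¹) =ᶠ[𝓝 z] fun _ => 0 := by
      filter_upwards [h z hz] with y hy
      rw [hy, zero_mul]
    exact continuousAt_const.congr h1.symm
  · exact hf.continuousAt.mul (hg.continuousAt.inv₀ hz)

/-- Continuity of the numbers. -/
structure CtG (ν : Nu (VV n)) : Prop where
  En : Continuous ν.En
  r2 : Continuous ν.r2
  k : Continuous ν.k
  F₁ : Continuous ν.F₁
  F₂ : Continuous ν.F₂

theorem CtG.mg {ν : Nu (VV n)} (h : CtG ν) {χ : VV n → ℝ} (hχ : Continuous χ)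
    (h0 : ∀ z, ν.r2 z = 0 → χ =ᶠ[𝓝 z] fun _ => 0) :
    ((MII ν).sm fun z => χ z ^ 2).Ct univ := by
  have hx : Continuous (fun z => χ z ^ 2) := hχ.pow 2
  have h1 : Continuous fun z => χ z ^ 2 * (ν.r2 z)⁻¹ := ct_inv hx h.r2 fun z hz => by
    filter_upwards [h0 z hz] with y hy
    rw [hy]; norm_num
  exact
    { κ := (hx.mul continuous_const).continuousOn
      ζ₁ := (hx.mul (continuous_const.mul h.k)).continuousOn
      ζ₂ := (hx.mul (continuous_const.mul h.k)).continuousOn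
      ζy := ((continuous_const (y := (1 / 4 : ℝ))).mul h1).continuousOn.congr fun z _ => by
        simp only [Q8.sm, MII, Pi.mul_apply]; ring
      w₁ := (hx.mul (continuous_const.mul (h.k.mul h.F₁))).continuousOn
      w₂ := (hx.mul (continuous_const.mul (h.k.mul h.F₂))).continuousOn
      wb := (hx.mul (h.En.pow 2)).continuousOn
      wc := (hx.mul continuous_const).continuousOn }

theorem CtG.co {ν : Nu (VV n)} (h : CtG ν) {Z : VV n → ℝ} (hZ : Continuous Z)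
    (h0 : ∀ z, ν.r2 z = 0 → Z =ᶠ[𝓝 z] fun _ => 0) (C : ℝ) : (cII ν C Z).Ct univ := by
  have hx : Continuous (fun z => C * Z z) := continuous_const.mul hZ
  have h1 : Continuous fun z => C * Z z * (ν.r2 z)⁻¹ := ct_inv hx h.r2 fun z hz => by
    filter_upwards [h0 z hz] with y hy
    rw [hy]; norm_num
  exact
    { κ := (hx.mul continuous_const).continuousOn
      ζ₁ := (hx.mul continuous_const).continuousOn
      ζ₂ := (hx.mul continuous_const).continuousOn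
      ζy := h1.continuousOn
      w₁ := (hx.mul h.F₁).continuousOn
      w₂ := (hx.mul h.F₂).continuousOn
      wb := (hx.mul (h.En.pow 2)).continuousOn
      wc := (hx.mul continuous_const).continuousOn }

/-- The cost is nonnegative. -/
theorem cII_nn {σ τ : Sl (VV n) (Fin n)} {v₁ v₂ W a b Z : VV n → ℝ} {ν : Nu (VV n)} {C : ℝ}
    {z : VV n} (hC : 0 ≤ C) (hZ : 0 ≤ Z z) (hr : 0 ≤ ν.r2 z) (hF₁ : 0 ≤ ν.F₁ z)
    (hF₂ : 0 ≤ ν.F₂ z) : 0 ≤ (cII ν C Z).dens σ τ v₁ v₂ W a b z := by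
  unfold cII
  rw [Q8.dens_sm]
  refine mul_nonneg (mul_nonneg hC hZ) ?_
  have n1 : 0 ≤ nX σ W a z := Q8.nX_nonneg σ W a z
  have n2 : 0 ≤ nX τ W b z := Q8.nX_nonneg τ W b z
  have n3 : 0 ≤ nY σ τ W a b z := Q8.nY_nonneg σ τ W a b z
  have r0 : 0 ≤ (ν.r2 z)⁻¹ := inv_nonneg.2 hr
  unfold Q8.dens H165.Tab.uf
  simp only
  have y3 : 0 ≤ ν.F₁ z * a z ^ 2 := mul_nonneg hF₁ (sq_nonneg _)
  have y4 : 0 ≤ ν.F₂ z * b z ^ 2 := mul_nonneg hF₂ (sq_nonneg _)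
  have y2 : 0 ≤ ν.En z ^ 2 * (a z + b z) ^ 2 := by positivity
  have y1 : 0 ≤ (ν.r2 z)⁻¹ * nY σ τ W a b z := mul_nonneg r0 n3
  linarith

/-- **Exhaustion in zone II.** -/
theorem zone_exhII {σ τ : Sl (VV n) (Fin n)} {θ v₁ v₂ W χ : VV n → ℝ} {ν : Nu (VV n)}
    {C C' K η : ℝ} {ρ En N k : VV n → ℝ}
    (ok : σ.Ok univ θ) (ot : τ.Ok univ θ) (hv₁ : Sm univ v₁) (hv₂ : Sm univ v₂)
    (hW : Sm univ W) (hχ : ContDiff ℝ ∞ χ) (hν : CtG ν) (hr : ∀ z, 0 ≤ ν.r2 z)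
    (hF₁ : ∀ z, 0 ≤ ν.F₁ z) (hF₂ : ∀ z, 0 ≤ ν.F₂ z) (hC : 0 ≤ C)
    (hd : ∀ z, ν.r2 z = 0 → χ =ᶠ[𝓝 z] fun _ => 0)
    (cZ : Continuous (Zc K η ρ En N k χ)) (Z0 : ∀ z, 0 ≤ Zc K η ρ En N k χ z)
    (hC' : Cfe ^ 2 * C = C')
    (zo : ∀ ε : ℝ, 0 < ε → Zone σ τ {z | χ z ≠ 0} θ v₁ v₂ W (chE ε χ)
      ((MII ν).sm fun z => chE ε χ z ^ 2) (cII ν C (Zc K η ρ En N k (chE ε χ)))) :
    Zone σ τ univ θ v₁ v₂ W χ ((MII ν).sm fun z => χ z ^ 2)
      (cII ν C' (Zc K η ρ En N k χ)) := by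
  have z0 : ∀ z, ν.r2 z = 0 → Zc K η ρ En N k χ =ᶠ[𝓝 z] fun _ => 0 := by
    intro z hz
    filter_upwards [H867.Z.sq1_ev (hd z hz), H867.Z.sqp_ev (hd z hz)] with y h1 h2
    exact Zc_0 h1 h2
  have h := zone_exh (mg := MII ν) (co := cII ν C (Zc K η ρ En N k χ)) (C := Cfe ^ 2)
    ok ot hv₁ hv₂ hW hχ (hν.mg hχ.continuous hd) (hν.co cZ z0 C)
    (fun z a b => cII_nn hC (Z0 z) (hr z) (hF₁ z) (hF₂ z)) le_rfl fun ε hε => by
      rw [cII_sm]
      have e : (fun z => phE ε χ z ^ 2 * Zc K η ρ En N k χ z) = Zc K η ρ En N k (chE ε χ) :=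
        funext fun z => (Zc_chE hε hχ z).symm
      rw [e]
      exact zo ε hε
  rw [cII_C, hC'] at h
  exact h

end Vale.Agent.P088.R2.H86.Z
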