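import Vale.Agent.P088.R2.H493.EP.CtL
import Vale.Agent.P088.R2.H870.Z2.Lit
import Vale.Agent.P088.R2.H475.Z.MbE
import Vale.Agent.P088.R2.H942.Pk.Al
import Vale.Agent.P088.R2.H86.Z.ExhII

/-!
# P088, stage 3, zone II: the functions on the package, the reduction to the set `χ ≠ 0`

`fnX_ok`: the structure `Fn.Ok` of helper870's functions `fnX`; `lt_pk`: the structure `Lt`; `red`: the zone theorem from the zone inequalities for `chE ε χ` on the
open set `χ ≠ 0`.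
-/

open Set Filter MeasureTheory
open scoped ContDiff Topology Matrix

noncomputable section

namespace Vale.Agent.P088.R2.H86.Z

open Vale.Agent.P088.LR Vale.Agent.P088.HY
open Vale.Agent.P088.R2.H31.EP
open Vale.Agent.P088.R2.H464.Cu (mid dif rq)
open Vale.Agent.P088.R2.H961.GW hiding Zc
open Vale.Agent.P088.R2.H551.E Vale.Agent.P088.R2.H960.W
open Vale.Agent.P088.R2.H165.Tab (MII cII Nu)
open Vale.Agent.P088.R2.H867.EP (Zo)
open Vale.Agent.P088.R2.H867.Z (Zc sq1 sqp)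
open Vale.Agent.P088.R2.H942.Pk (kz kE Mv Am t0 kz_eq)
open Vale.Agent.P088.R2.H475.Z (frx fry)
open Vale.Agent.P088.R2.H870.Z2 (Fn Cs2 Lt MB fnX gz ez zz ZX)
open Vale.Agent.P088.R2.H493.EP (CF evCF)
open Vale.Agent.P088.R2.H455.E (nu)

variable {n : ℕ} {q : Cst} {d : Pk n}

/-! ### The margin `kz` -/

theorem rp_nn (s : ℝ) : 0 ≤ s ^ (5 / 2 : ℝ) := by
  rcases le_or_gt 0 s with h | h
  · exact Real.rpow_nonneg h _
  · rw [Real.rpow_def_of_neg h]
    have e : Real.cos (5 / 2 * Real.pi) = 0 := by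
      have e1 : (5 / 2 * Real.pi : ℝ) = Real.pi / 2 + 2 * Real.pi := by ring
      rw [e1, Real.cos_add_two_pi, Real.cos_pi_div_two]
    rw [e, mul_zero]

theorem hm_pos' {A C t s : ℝ} (hA : 0 < A) : 0 < H932.EP.hm A C t s := by
  have h1 := Real.exp_pos (-(C * (s - t)))
  have h2 := rp_nn s
  unfold H932.EP.hm
  positivity

theorem mu2_ct {A C t : ℝ} (hA : 0 < A) : Continuous (H932.EP.mu2 A C t) := by
  have h1 : Continuous (H932.EP.hm A C t) := by
    have h2 : Continuous fun s : ℝ => s ^ (5 / 2 : ℝ) := Real.continuous_rpow_const (by norm_num)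
    unfold H932.EP.hm
    exact (h2.div_const A).add (by fun_prop)
  exact h1.inv₀ fun s => (hm_pos' hA).ne'

theorem mu2_pos' {A C t s : ℝ} (hA : 0 < A) : 0 < H932.EP.mu2 A C t s := inv_pos.2 (hm_pos' hA)

theorem Am_pos : 0 < Am := by
  unfold Am H313.Mu.dl
  positivity

/-- The margin is continuous. -/
theorem kz_ct (c : CF q d) : Continuous (kz q d) := by
  have e : kz q d = fun z => 1 / 10 ^ 9 * (d.m q z *
      (d.Kf q z / (d.Kf q z + d.m q z) + Mv q (d.l (mid z)) + q.σ * q.R⁻¹)) := funext (kz_eq q d)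
  rw [e]
  have hm : Continuous (d.m q) := c.cE.mul c.cr2
  have hl : Continuous fun z : VV n => d.l (mid z) :=
    c.ok.l_sm.continuous.comp H464.Cu.contDiff_mid.continuous
  refine continuous_const.mul (hm.mul ((Continuous.add (c.cK.div (c.cK.add hm) fun z => ?_)
    ((mu2_ct Am_pos).comp hl)).add continuous_const))
  have h1 : 0 < d.Kf q z := c.ok.top.k0 _
  have h2 : 0 ≤ d.m q z := mul_nonneg (CF.E0 z).le (c.r2n z)
  show d.Kf q z + d.m q z ≠ 0
  positivity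

/-- The margin is nonnegative. -/
theorem kz_nn (c : CF q d) (z : VV n) : 0 ≤ kz q d z := by
  rw [kz_eq]
  have h1 : 0 < d.Kf q z := c.ok.top.k0 _
  have h2 : 0 ≤ d.m q z := mul_nonneg (CF.E0 z).le (c.r2n z)
  have h3 : 0 < Mv q (d.l (mid z)) := mu2_pos' Am_pos
  have h4 := c.σ0
  have h5 := c.R0
  positivity

/-- The margin is positive off the diagonal. -/
theorem kz_pos (c : CF q d) {z : VV n} (hz : z ∈ CF.Om d) : 0 < kz q d z := by
  rw [kz_eq]
  have h1 : 0 < d.Kf q z := c.ok.top.k0 _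
  have h2 : 0 < d.m q z := mul_pos (CF.E0 z) hz
  have h3 : 0 < Mv q (d.l (mid z)) := mu2_pos' Am_pos
  have h4 := c.σ0
  have h5 := c.R0
  positivity

/-- The field `kz` of helper493's `LcCt`. -/
theorem kz_Ct (n : ℕ) : EvC fun q => ∀ d : Pk n, PkOk q d → ContinuousOn (kz q d) (CF.Om d) ∧
    ∀ z ∈ CF.Om d, 0 < kz q d z :=
  (evCF n).mono fun _ h d ok => ⟨(kz_ct (h d ok)).continuousOn, fun _ hz => kz_pos (h d ok) hz⟩

/-! ### The functions -/

/-- The alive set. -/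
def Ua (k : Zo) (q : Cst) (d : Pk n) : Set (VV n) := {z | d.ch q k z ≠ 0}

theorem Ua_open (c : CF q d) (k : Zo) : IsOpen (Ua k q d) :=
  isOpen_ne.preimage (c.s.ch k).continuous

/-- The leaves of zone II. -/
def Is2 (k : Zo) : Prop := k = .z2a ∨ k = .z2b

theorem Ua_Om (c : CF q d) {k : Zo} (hk : Is2 k) {z : VV n} (hz : z ∈ Ua k q d) :
    z ∈ CF.Om d := by
  rcases hk with rfl | rfl
  · exact c.z2a (subset_tsupport _ hz)
  · exact c.z2b (subset_tsupport _ hz)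

theorem ts_Om (c : CF q d) {k : Zo} (hk : Is2 k) {z : VV n} (hz : z ∈ tsupport (d.ch q k)) :
    z ∈ CF.Om d := by
  rcases hk with rfl | rfl
  · exact c.z2a hz
  · exact c.z2b hz

theorem Ua_Z2 {k : Zo} (hk : Is2 k) {z : VV n} (hz : z ∈ Ua k q d) : H606.EP.Z2 q d z := by
  rcases hk with rfl | rfl
  · exact Or.inl hz
  · exact Or.inr hz

theorem gz_pos (c : CF q d) (z : VV n) : 0 < gz q d z := by
  have h1 : 0 < d.E q z := CF.E0 z
  have h2 : 0 ≤ d.m q z := mul_nonneg h1.le (c.r2n z)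
  unfold gz
  positivity

/-- The letter `Z` of a smooth cut-off is smooth on the alive set. -/
theorem Zc_smU (c : CF q d) {U : Set (VV n)} {K : ℝ} {χ : VV n → ℝ} (hχ : ContDiff ℝ ∞ χ)
    (kS : Sm U (kz q d)) (h : ∀ z ∈ U, z ∈ CF.Om d) :
    Sm U (Zc K 1 (rq (gi d.s₁)) (d.E q) (d.N q) (kz q d) χ) := by
  have sE : Sm U (d.E q) := c.s.u.exp.contDiffOn
  have sN : Sm U (d.N q) := (c.ok.Φ's.comp c.s.u).contDiffOn
  have sρ : Sm U (rq (gi d.s₁)) := c.s.rq.contDiffOn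
  have hr : ∀ z ∈ U, (2 : ℝ) * rq (gi d.s₁) z ≠ 0 := fun z hz =>
    (show 0 < d.r2 z from h z hz).ne'
  have s1 : Sm U (sq1 χ) := (H867.Z.sq1_sm hχ).contDiffOn
  have s2 : Sm U (sqp χ) := (H867.Z.sqp_sm hχ).contDiffOn
  have s3 : Sm U fun z => (2 : ℝ) * rq (gi d.s₁) z := contDiffOn_const.mul sρ
  have s4 : Sm U fun z => 1 + (d.N q z + kz q d z) / (d.E q z * (2 * rq (gi d.s₁) z)) :=
    contDiffOn_const.add ((sN.add kS).div (sE.mul s3) fun z hz =>
      mul_ne_zero (Real.exp_pos _).ne' (hr z hz))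
  unfold Zc
  refine ContDiffOn.div (contDiffOn_const.mul ((((contDiffOn_const.mul sρ).mul s1).mul
    (s4.pow 2)).add s2)) (contDiffOn_const.mul kS) fun z hz => ?_
  have := kz_pos c (h z hz)
  positivity

/-- **`Fn.Ok` off the diagonal**, from the smoothness of `kz` and of the fields. -/
theorem fnX_ok (c : CF q d) {U : Set (VV n)} (hU : ∀ z ∈ U, z ∈ CF.Om d) {χ : VV n → ℝ}
    (hχ : ContDiff ℝ ∞ χ) {K : ℝ} (hK : 0 ≤ K) {s : Cs2} (hL : 0 < s.L) (kS : Sm U (kz q d))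
    (cS : ∀ i, Sm U ((d.wn q).c₁ (kE q d) i)) (cS' : ∀ i, Sm U ((d.wn q).c₂ (kE q d) i)) :
    (fnX s.L K χ q d).Ok U s := by
  have sE : ContDiff ℝ ∞ (d.E q) := c.s.u.exp
  have sr : ContDiff ℝ ∞ d.r2 := contDiff_const.mul c.s.rq
  have sm : ContDiff ℝ ∞ (d.m q) := sE.mul sr
  have hm : ∀ z, 0 ≤ d.m q z := fun z => mul_nonneg (CF.E0 z).le (c.r2n z)
  have sg : ContDiff ℝ ∞ (gz q d) :=
    (contDiff_const.mul sE).div (contDiff_const.add sm) fun z => by
      have := hm z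
      positivity
  exact
    { v₁ := contDiffOn_const
      v₂ := contDiffOn_const
      W := c.W.contDiffOn
      χ := hχ.contDiffOn
      k := kS
      g := sg.contDiffOn
      e := (contDiff_const.mul (sE.pow 2)).contDiffOn
      Z := Zc_smU c hχ kS hU
      ζ := ContDiffOn.sqrt (contDiff_const.mul sg).contDiffOn fun z _ =>
        (mul_pos hL (gz_pos c z)).ne'
      c := cS
      c' := cS'
      k0 := fun z hz => (kz_pos c (hU z hz)).le
      g0 := fun z _ => (gz_pos c z).le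
      e0 := fun z _ => by
        show 0 ≤ 3 * d.E q z ^ 2
        positivity
      Z0 := fun z hz => H867.Z.Zc_nn hK zero_le_one (by
          have h1 : 0 < 2 * rq (gi d.s₁) z := hU z hz
          linarith) (kz_pos c (hU z hz)).le
      L := fun z _ => Real.sq_sqrt (mul_pos hL (gz_pos c z)).le }

/-- **`Lt` off the diagonal.** -/
theorem lt_pk {L K A : ℝ} {χ : VV n → ℝ} {z : VV n} (hz : z ∈ CF.Om d)
    (hm : 1 ≤ d.m q z) (mb : MB d.sx d.sy (frx d.s₁) (fry d.s₂) A (√(d.r2 z)) z)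
    {kk : Cst → Pk n → VV n → ℝ} :
    Lt d.sx d.sy (fnX L K χ q d).p (fnX L K χ q d).q (fnX L K χ q d).g
      (fnX L K χ q d).e (nu kk q d) A z where
  f₁ := mb.f₁
  r2 := hz
  df := mb.df
  g₁ := by
    show 2 ≤ 4 * d.E q z / (1 + d.m q z) * d.r2 z
    have e : d.m q z = d.E q z * d.r2 z := rfl
    have h0 : 0 < 1 + d.m q z := by linarith
    rw [div_mul_eq_mul_div, le_div_iff₀ h0]
    rw [e] at hm ⊢
    linarith
  g₂ := by
    show 4 * d.E q z / (1 + d.m q z) * d.r2 z ≤ 4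
    have e : d.m q z = d.E q z * d.r2 z := rfl
    have h0 : 0 < 1 + d.m q z := by linarith
    rw [div_mul_eq_mul_div, div_le_iff₀ h0]
    rw [e] at hm ⊢
    linarith
  e₁ := by
    show 2 * d.E q z ^ 2 ≤ 3 * d.E q z ^ 2
    nlinarith [sq_nonneg (d.E q z)]
  e₂ := by
    show 3 * d.E q z ^ 2 ≤ 4 * d.E q z ^ 2
    nlinarith [sq_nonneg (d.E q z)]

/-! ### The reduction -/

/-- The zone inequality for `chE ε χ` on the alive set. -/
def ZoU (C K : ℝ) (k : Zo) (q : Cst) (d : Pk n) : Prop := ∀ ε : ℝ, 0 < ε →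
  Zone d.sx d.sy (Ua k q d) (fun _ => 1) (fun _ => 0) (fun _ => 0) (d.W q) (chE ε (d.ch q k))
    ((MII (nu (fun q d => kz q d) q d)).sm fun z => chE ε (d.ch q k) z ^ 2)
    (cII (nu (fun q d => kz q d) q d) C
      (Zc K 1 (rq (gi d.s₁)) (d.E q) (d.N q) (kz q d) (chE ε (d.ch q k))))

/-- **The reduction at one package.** -/
theorem red1 (c : CF q d) (el₁ : ∀ z, H86.Z.El d.sx z) (el₂ : ∀ z, H86.Z.El d.sy z) {k : Zo}
    (hk : Is2 k) {C K : ℝ} (hC : 0 ≤ C) (hK : 0 ≤ K) (h : ZoU C K k q d) :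
    d.Zone q (d.ch q k)
      ((MII (nu (fun q d => kz q d) q d)).sm fun z => d.ch q k z ^ 2)
      (cII (nu (fun q d => kz q d) q d) (Cfe ^ 2 * C)
        (Zc K 1 (rq (gi d.s₁)) (d.E q) (d.N q) (kz q d) (d.ch q k))) := by
  obtain ⟨c1, c2⟩ := c.ct2 (fun z hz => ts_Om c hk hz) (kz := fun q d => kz q d)
    (kz_ct c).continuousOn (fun z hz => kz_pos c hz) (C := C) (K := K)
  have h2 := zone_exh (mg := MII (nu (fun q d => kz q d) q d))
    (co := cII (nu (fun q d => kz q d) q d) C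
      (Zc K 1 (rq (gi d.s₁)) (d.E q) (d.N q) (kz q d) (d.ch q k))) (C := Cfe ^ 2)
    c.ox c.oy (v₁ := fun _ => 0) (v₂ := fun _ => 0) contDiffOn_const contDiffOn_const
    c.W.contDiffOn (c.s.ch k) c1 c2
    (fun z a b => cII_nn hC (H867.Z.Zc_nn hK zero_le_one (c.s.rq0 z) (kz_nn c z)) (c.r2n z)
      ((el₁ z).F0 _) ((el₂ z).F0 _)) le_rfl fun ε hε => by
      rw [cII_sm]
      have e : (fun z => phE ε (d.ch q k) z ^ 2 *
          Zc K 1 (rq (gi d.s₁)) (d.E q) (d.N q) (kz q d) (d.ch q k) z) =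
          Zc K 1 (rq (gi d.s₁)) (d.E q) (d.N q) (kz q d) (chE ε (d.ch q k)) :=
        funext fun z => (Zc_chE hε (c.s.ch k) z).symm
      rw [e]
      exact h ε hε
  rw [cII_C] at h2
  exact h2

/-- **The zone theorem from the zone inequalities on the alive sets.** -/
theorem red (hn : 1 ≤ n) {k : Zo} (hk : Is2 k) {C K : Cst → ℝ} (hC : ∀ q, 0 ≤ C q)
    (hK : ∀ q, 0 ≤ K q)
    (h : EvC fun q => ∀ d : Pk n, PkOk q d → ZoU (C q) (K q) k q d) :
    ZoneThm n (fun q d => d.ch q k)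
      (fun q d => (MII (nu (fun q d => kz q d) q d)).sm fun z => d.ch q k z ^ 2)
      (fun q d => cII (nu (fun q d => kz q d) q d) (Cfe ^ 2 * C q)
        (Zc (K q) 1 (rq (gi d.s₁)) (d.E q) (d.N q) (kz q d) (d.ch q k))) :=
  (((evCF n).and (H942.Pk.lm_ev hn)).and h).mono fun q hq d ok =>
    red1 (hq.1.1 d ok) (fun z => H475.Z.elX ok hq.1.2 z) (fun z => H475.Z.elY ok hq.1.2 z) hk
      (hC q) (hK q) (hq.2 d ok)

end Vale.Agent.P088.R2.H86.Z
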