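import Vale.Agent.P088.R2.H86.Z.PT5
import Vale.Agent.P088.R2.H86.Z.Wnp
import Vale.Agent.P088.R2.H606.EP.Loc
import Vale.Agent.P088.R2.H31.EP.PackL

/-!
# P088, stage 3, zone II: the structure of the weight of the package near a near pair
-/

open Set Filter
open scoped ContDiff Topology Matrix

noncomputable section

namespace Vale.Agent.P088.R2.H86.Z

open Vale.Agent.P088.LR Vale.Agent.P088.HY Vale.Agent.P088.R2.H31.EP
open Vale.Agent.P088.R2.H464.Cu (mid dif rq Nr Dst contDiff_mid)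
open Vale.Agent.P088.R2.H644.Ch (Cp)
open Vale.Agent.P088.R2.H606.EP (Loc Lm Ob Uz Ob_open Ob_convex prS_sm prS_d1 prS_d2)

variable {n : ℕ} {q : Cst} {d : Pk n} {z : VV n}

theorem sm_deriv {f : ℝ → ℝ} (hf : ContDiff ℝ ∞ f) : ContDiff ℝ ∞ (deriv f) :=
  (contDiff_infty_iff_deriv.1 hf).2

theorem gi_sm' (h : PkOk q d) (m : Lm n q) (i j : Fin n) : ContDiff ℝ ∞ fun x => gi d.s₁ x i j :=
  contDiffOn_univ.1 ((H606.EP.ten h m univ isOpen_univ).2.2.sm i j)

theorem rq_sm' (h : PkOk q d) (m : Lm n q) : ContDiff ℝ ∞ (rq (gi d.s₁)) := by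
  unfold rq H464.Cu.bf
  have h2 : ∀ i, ContDiff ℝ ∞ (fun z : VV n => dif z i) := fun i => by
    unfold dif
    exact ((contDiff_apply ℝ ℝ i).comp contDiff_fst).sub
      ((contDiff_apply ℝ ℝ i).comp contDiff_snd)
  exact contDiff_const.mul (ContDiff.sum fun i _ => ContDiff.sum fun j _ =>
    (((gi_sm' h m i j).comp contDiff_mid).mul (h2 i)).mul (h2 j))

theorem hd_deriv {f : ℝ → ℝ} (hf : ContDiff ℝ ∞ f) (s : ℝ) : HasDerivAt f (deriv f s) s :=
  (hf.differentiable (by simp) s).hasDerivAt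

/-- **The structure `Wl` on the package.** -/
theorem wl_pk (h : PkOk q d) (m : Lm n q) (L : Loc q d z) :
    Wl (Ob z) (d.wn q) d.Φ (d.μc q) (d.W q) z (Uz (gi d.s₁) z) where
  ho := L.uo
  hU := fun w hw => ⟨hw.1, hw.2.1⟩
  hz := L.uz
  cμ := by
    have h1 : ContDiff ℝ ∞ (d.μc q) := Pk.μc_smooth d q h.ph.isμ.sm
    have h2 : ContDiffOn ℝ ∞ (lm d.l) (Ob z ×ˢ Ob z) :=
      (h.lev.sm.comp contDiff_mid).contDiffOn
    exact Cp.of h2 h1 (sm_deriv h1) (hd_deriv h1) (hd_deriv (sm_deriv h1))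
  hu := fun w hw => by
    have := L.eu hw
    exact this
  cΦ := by
    have h1 : ContDiff ℝ ∞ d.Φ := h.ok.Φs
    have h0 : ContDiff ℝ ∞ (d.μc q) := Pk.μc_smooth d q h.ph.isμ.sm
    have h3 : ContDiff ℝ ∞ (H932.EP.u1 (d.μc q) d.l) :=
      ((h.lev.sm.comp contDiff_fst).add (h.lev.sm.comp contDiff_snd)).add
        (contDiff_const.mul (h0.comp (h.lev.sm.comp contDiff_mid)))
    have h2 : ContDiffOn ℝ ∞ (d.u q) (Uz (gi d.s₁) z) := h3.contDiffOn.congr L.eu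
    exact Cp.of h2 h1 (sm_deriv h1) (hd_deriv h1) (hd_deriv (sm_deriv h1))
  cS := by
    have he := m.eg0
    have h1 : deriv (prS q.e₁) = H606.EP.prS₁ q.e₁ := funext fun s => (prS_d1 he s).deriv
    have h2 : ContDiff ℝ ∞ (H606.EP.prS₁ q.e₁) := h1 ▸ sm_deriv (prS_sm he)
    have h3 : ContDiffOn ℝ ∞ (d.wn q).r2 (Uz (gi d.s₁) z) :=
      (contDiff_const.mul (rq_sm' h m)).contDiffOn
    exact Cp.of h3 (prS_sm he) h2 (prS_d1 he) (prS_d2 he)
  hW := fun w hw => by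
    have := L.eW hw
    exact this

end Vale.Agent.P088.R2.H86.Z
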